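import Mathlib

/-!
# P038 (H631): a two dimensional Hall inequality

Rows satisfy Hall's condition, columns satisfy Hall's condition; the product measure of the
mixed difference is nonnegative. Columns are balanced (water filling), rows are greedy with
respect to the same densities, and saddle points are unique.
-/

namespace Vale.Agent.P038.H631

open Finset

variable {V : Type*} [Fintype V]

/-- Layer cake: Hall's condition for sets gives the inequality for functions. -/
theorem layer [DecidableEq V] (w : V → ℝ) (G H : V → Prop) [DecidablePred H]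
    (R : V → V → Prop)
    (hall : ∀ S : Finset V, (∀ y ∈ S, G y) → ∀ T : Finset V,
      (∀ z, z ∈ T ↔ (H z ∧ ∃ y ∈ S, R y z)) → ∑ y ∈ S, w y ≤ ∑ z ∈ T, w z) :
    ∀ (n : ℕ) (κ M : V → ℝ), (Finset.univ.filter fun y => κ y ≠ 0).card ≤ n →
      (∀ y, 0 ≤ κ y) → (∀ y, κ y ≠ 0 → G y) → (∀ z, H z → 0 ≤ M z) →
      (∀ z, H z → 0 ≤ w z) →
      (∀ y z, R y z → H z → κ y ≤ M z) →
      ∑ y, w y * κ y ≤ ∑ z ∈ Finset.univ.filter H, w z * M z := by
  classical
  intro n
  induction n with
  | zero =>
    intro κ M hn h0 _ hM hw _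
    have h1 : ∀ y, κ y = 0 := by
      intro y
      by_contra hy
      have h2 := Finset.card_eq_zero.1 (Nat.le_zero.1 hn)
      have h3 : y ∈ Finset.univ.filter fun y => κ y ≠ 0 := by simp [hy]
      rw [h2] at h3
      exact absurd h3 (Finset.notMem_empty y)
    have h2 : ∑ y, w y * κ y = 0 := Finset.sum_eq_zero fun y _ => by rw [h1 y, mul_zero]
    rw [h2]
    refine Finset.sum_nonneg fun z hz => ?_
    have h3 := (Finset.mem_filter.1 hz).2
    exact mul_nonneg (hw z h3) (hM z h3)
  | succ n ih =>
    intro κ M hn h0 hG hM hw hR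
    set S : Finset V := Finset.univ.filter fun y => κ y ≠ 0 with hS
    by_cases hne : S.Nonempty
    · obtain ⟨y0, hy0, hmin⟩ := Finset.exists_min_image S κ hne
      set m := κ y0 with hm
      have hy0' : κ y0 ≠ 0 := (Finset.mem_filter.1 hy0).2
      have hmpos : 0 < m := lt_of_le_of_ne (h0 y0) (Ne.symm hy0')
      set κ' : V → ℝ := fun y => κ y - (if y ∈ S then m else 0) with hκ'
      set M' : V → ℝ := fun z => M z - (if ∃ y ∈ S, R y z then m else 0) with hM'
      have hSG : ∀ y ∈ S, G y := fun y hy => hG y (Finset.mem_filter.1 hy).2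
      have hnS : ∀ y, y ∉ S → κ y = 0 := by
        intro y hy
        by_contra h
        exact hy (Finset.mem_filter.2 ⟨Finset.mem_univ y, h⟩)
      have c1 : (Finset.univ.filter fun y => κ' y ≠ 0).card ≤ n := by
        have hsub : (Finset.univ.filter fun y => κ' y ≠ 0) ⊆ S.erase y0 := by
          intro y hy
          have hy1 := (Finset.mem_filter.1 hy).2
          rw [Finset.mem_erase]
          have hyS : y ∈ S := by
            by_contra h
            apply hy1
            simp only [hκ']
            rw [if_neg h, hnS y h, sub_zero]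
          refine ⟨?_, hyS⟩
          rintro rfl
          apply hy1
          simp only [hκ']
          rw [if_pos hyS, hm, sub_self]
        have h1 := Finset.card_le_card hsub
        rw [Finset.card_erase_of_mem hy0] at h1
        have h2 : 0 < S.card := Finset.card_pos.2 hne
        omega
      have c2 : ∀ y, 0 ≤ κ' y := by
        intro y
        simp only [hκ']
        by_cases h : y ∈ S
        · rw [if_pos h]
          have := hmin y h
          linarith
        · rw [if_neg h, sub_zero]
          exact h0 y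
      have c3 : ∀ y, κ' y ≠ 0 → G y := by
        intro y hy
        by_cases h : y ∈ S
        · exact hSG y h
        · exfalso
          apply hy
          simp only [hκ']
          rw [if_neg h, hnS y h, sub_zero]
      have c4 : ∀ z, H z → 0 ≤ M' z := by
        intro z hz
        simp only [hM']
        split_ifs with h
        · obtain ⟨y, hy, hyz⟩ := h
          have h1 := hR y z hyz hz
          have h2 := hmin y hy
          linarith
        · rw [sub_zero]
          exact hM z hz
      have c5 : ∀ y z, R y z → H z → κ' y ≤ M' z := by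
        intro y z hyz hz
        by_cases h : y ∈ S
        · simp only [hκ', hM']
          rw [if_pos h, if_pos ⟨y, h, hyz⟩]
          have := hR y z hyz hz
          linarith
        · have h1 : κ' y = 0 := by
            simp only [hκ']
            rw [if_neg h, hnS y h, sub_zero]
          rw [h1]
          exact c4 z hz
      have h1 := ih κ' M' c1 c2 c3 c4 hw c5
      have h2 : ∑ y, w y * κ' y = ∑ y, w y * κ y - m * ∑ y ∈ S, w y := by
        simp only [hκ', mul_sub, Finset.sum_sub_distrib, mul_ite, mul_zero]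
        rw [Finset.sum_ite_mem, Finset.univ_inter, Finset.mul_sum]
        congr 1
        exact Finset.sum_congr rfl fun y _ => mul_comm _ _
      have h3 : ∑ z ∈ Finset.univ.filter H, w z * M' z = ∑ z ∈ Finset.univ.filter H, w z * M z -
          m * ∑ z ∈ Finset.univ.filter (fun z => H z ∧ ∃ y ∈ S, R y z), w z := by
        simp only [hM', mul_sub, Finset.sum_sub_distrib, mul_ite, mul_zero]
        rw [← Finset.sum_filter, Finset.filter_filter, Finset.mul_sum]
        congr 1
        exact Finset.sum_congr rfl fun y _ => mul_comm _ _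
      have h4 := mul_le_mul_of_nonneg_left (hall S hSG
        (Finset.univ.filter (fun z => H z ∧ ∃ y ∈ S, R y z)) (fun z => by simp)) hmpos.le
      rw [h2, h3] at h1
      linarith
    · refine ih κ M ?_ h0 hG hM hw hR
      rw [Finset.not_nonempty_iff_eq_empty] at hne
      rw [← hS, hne, Finset.card_empty]
      exact Nat.zero_le n

/-- Water filling in one column. -/
theorem fill [DecidableEq V] (w : V → ℝ) (hw : ∀ v, 0 < w v) (G K : V → Prop)
    (R : V → V → Prop) (hK : ∀ a', K a' → ∃ a, G a ∧ R a a')
    (hall : ∀ S : Finset V, (∀ a ∈ S, G a) → ∀ T : Finset V,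
      (∀ a', a' ∈ T ↔ (K a' ∧ ∃ a ∈ S, R a a')) → ∑ a ∈ S, w a ≤ ∑ a' ∈ T, w a') :
    ∃ S : V → V → ℝ, (∀ a a', 0 ≤ S a a') ∧ (∀ a a', S a a' ≠ 0 → G a ∧ K a' ∧ R a a') ∧
      (∀ a', K a' → ∑ a, S a a' = w a') ∧
      (∀ a a', S a a' ≠ 0 → ∀ b, G b → R b a' →
        (∑ d, S a d) / w a ≤ (∑ d, S b d) / w b) ∧
      (∀ a, G a → 1 ≤ (∑ d, S a d) / w a) := by
  classical
  -- the compact set
  set C : Set (V → V → ℝ) := {S | (∀ a a', 0 ≤ S a a') ∧
    (∀ a a', ¬ (G a ∧ K a' ∧ R a a') → S a a' = 0) ∧ ∀ a', K a' → ∑ a, S a a' = w a'} with hC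
  have hbd : C ⊆ Set.pi Set.univ (fun _ : V => Set.pi Set.univ fun a' : V => Set.Icc 0 (w a')) := by
    rintro S ⟨h1, h2, h3⟩ a _ a' _
    refine ⟨h1 a a', ?_⟩
    by_cases hk : K a'
    · rw [← h3 a' hk]
      exact Finset.single_le_sum (f := fun a => S a a') (fun b _ => h1 b a') (Finset.mem_univ a)
    · rw [h2 a a' fun h => hk h.2.1]
      exact (hw a').le
  have hclosed : IsClosed C := by
    have e : C = (⋂ a, ⋂ a', {S : V → V → ℝ | 0 ≤ S a a'}) ∩
        ((⋂ a, ⋂ a', ⋂ (_ : ¬ (G a ∧ K a' ∧ R a a')), {S : V → V → ℝ | S a a' = 0}) ∩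
        (⋂ a', ⋂ (_ : K a'), {S : V → V → ℝ | ∑ a, S a a' = w a'})) := by
      ext S
      simp only [hC, Set.mem_ofPred_eq, Set.mem_inter_iff, Set.mem_iInter]
    rw [e]
    refine IsClosed.inter ?_ (IsClosed.inter ?_ ?_)
    · refine isClosed_iInter fun a => isClosed_iInter fun a' => ?_
      exact isClosed_le continuous_const ((continuous_apply a').comp (continuous_apply a))
    · refine isClosed_iInter fun a => isClosed_iInter fun a' => isClosed_iInter fun _ => ?_
      exact isClosed_eq ((continuous_apply a').comp (continuous_apply a)) continuous_const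
    · refine isClosed_iInter fun a' => isClosed_iInter fun _ => ?_
      refine isClosed_eq ?_ continuous_const
      exact continuous_finsetSum _ fun a _ => (continuous_apply a').comp (continuous_apply a)
  have hcomp : IsCompact C :=
    (isCompact_univ_pi fun _ => isCompact_univ_pi fun _ => isCompact_Icc).of_isClosed_subset
      hclosed hbd
  have hne : C.Nonempty := by
    choose! f hf using hK
    refine ⟨fun a a' => if K a' ∧ a = f a' then w a' else 0, ?_, ?_, ?_⟩
    · intro a a'
      dsimp only
      split_ifs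
      · exact (hw a').le
      · exact le_rfl
    · intro a a' h
      dsimp only
      rw [if_neg]
      rintro ⟨h1, rfl⟩
      exact h ⟨(hf a' h1).1, h1, (hf a' h1).2⟩
    · intro a' h
      dsimp only
      simp only [h, true_and]
      rw [Finset.sum_ite_eq']
      simp
  set Φ : (V → V → ℝ) → ℝ := fun S => ∑ a, (∑ d, S a d) ^ 2 / w a with hΦ
  have hcont : ContinuousOn Φ C := by
    apply Continuous.continuousOn
    refine continuous_finsetSum _ fun a _ => ?_
    refine Continuous.div_const ?_ _
    refine Continuous.pow ?_ 2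
    exact continuous_finsetSum _ fun d _ => (continuous_apply d).comp (continuous_apply a)
  obtain ⟨S, hSC, hmin⟩ := hcomp.exists_isMinOn hne hcont
  obtain ⟨h1, h2, h3⟩ := hSC
  have h2' : ∀ a a', S a a' ≠ 0 → G a ∧ K a' ∧ R a a' := by
    intro a a' h
    by_contra hcon
    exact h (h2 a a' hcon)
  have h4 : ∀ a a', S a a' ≠ 0 → ∀ b, G b → R b a' →
      (∑ d, S a d) / w a ≤ (∑ d, S b d) / w b := by
    intro a a' haa b hb hba
    by_contra hcon
    push Not at hcon
    have hab : a ≠ b := by
      rintro rfl
      exact lt_irrefl _ hcon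
    obtain ⟨hGa, hKa', hRa⟩ := h2' a a' haa
    set A := ∑ d, S a d with hA
    set B := ∑ d, S b d with hB
    have hgap : 0 < A / w a - B / w b := sub_pos.2 hcon
    have hq : 0 < 1 / w a + 1 / w b := add_pos (one_div_pos.2 (hw a)) (one_div_pos.2 (hw b))
    have hSpos : 0 < S a a' := lt_of_le_of_ne (h1 a a') (Ne.symm haa)
    obtain ⟨ε, hε0, hε1, hε2⟩ : ∃ ε : ℝ, 0 < ε ∧ ε ≤ S a a' ∧
        ε * (1 / w a + 1 / w b) ≤ A / w a - B / w b := by
      refine ⟨min (S a a') ((A / w a - B / w b) / (1 / w a + 1 / w b)),
        lt_min hSpos (div_pos hgap hq), min_le_left _ _, ?_⟩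
      calc min (S a a') ((A / w a - B / w b) / (1 / w a + 1 / w b)) * (1 / w a + 1 / w b)
          ≤ ((A / w a - B / w b) / (1 / w a + 1 / w b)) * (1 / w a + 1 / w b) :=
            mul_le_mul_of_nonneg_right (min_le_right _ _) hq.le
        _ = A / w a - B / w b := div_mul_cancel₀ _ hq.ne'
    set δ : V → ℝ := fun c => (if c = b then ε else 0) - (if c = a then ε else 0) with hδ
    set S' : V → V → ℝ := fun c d => S c d + (if d = a' then δ c else 0) with hS'
    have hrow : ∀ c, ∑ d, S' c d = ∑ d, S c d + δ c := by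
      intro c
      simp only [hS', Finset.sum_add_distrib]
      rw [Finset.sum_ite_eq' Finset.univ a' (fun _ => δ c), if_pos (Finset.mem_univ a')]
    have hδsum : ∑ c, δ c = 0 := by
      simp only [hδ, Finset.sum_sub_distrib]
      rw [Finset.sum_ite_eq' Finset.univ b (fun _ => ε), Finset.sum_ite_eq' Finset.univ a
        (fun _ => ε), if_pos (Finset.mem_univ b), if_pos (Finset.mem_univ a), sub_self]
    have hS'C : S' ∈ C := by
      refine ⟨?_, ?_, ?_⟩
      · intro c d
        simp only [hS', hδ]
        by_cases hd : d = a'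
        · rw [if_pos hd]
          by_cases hc : c = a
          · rw [if_pos hc, if_neg (by rw [hc]; exact hab), hc, hd]
            linarith
          · rw [if_neg hc]
            have := h1 c d
            split_ifs <;> linarith
        · rw [if_neg hd, add_zero]
          exact h1 c d
      · intro c d hcd
        have h5 := h2 c d hcd
        simp only [hS', hδ]
        rw [h5]
        by_cases hd : d = a'
        · have hc1 : c ≠ a := by
            rintro rfl
            exact hcd ⟨hGa, by rw [hd]; exact hKa', by rw [hd]; exact hRa⟩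
          have hc2 : c ≠ b := by
            rintro rfl
            exact hcd ⟨hb, by rw [hd]; exact hKa', by rw [hd]; exact hba⟩
          rw [if_pos hd, if_neg hc1, if_neg hc2]
          ring
        · rw [if_neg hd, add_zero]
      · intro d hd
        simp only [hS', Finset.sum_add_distrib]
        rw [h3 d hd]
        by_cases hda : d = a'
        · simp only [if_pos hda]
          rw [hδsum, add_zero]
        · simp only [if_neg hda]
          rw [Finset.sum_const_zero, add_zero]
    have h5 : Φ S ≤ Φ S' := hmin hS'C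
    have h6 : Φ S' = Φ S + ∑ c, (2 * (∑ d, S c d) * δ c + δ c ^ 2) / w c := by
      simp only [hΦ]
      rw [← Finset.sum_add_distrib]
      refine Finset.sum_congr rfl fun c _ => ?_
      rw [hrow c]
      ring
    have h7 : ∑ c, (2 * (∑ d, S c d) * δ c + δ c ^ 2) / w c =
        (2 * B * ε + ε ^ 2) / w b + (-(2 * A * ε) + ε ^ 2) / w a := by
      have e : ∀ c, (2 * (∑ d, S c d) * δ c + δ c ^ 2) / w c =
          (if c = b then (2 * B * ε + ε ^ 2) / w b else 0) +
          (if c = a then (-(2 * A * ε) + ε ^ 2) / w a else 0) := by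
        intro c
        simp only [hδ]
        by_cases hc : c = a
        · subst hc
          rw [if_neg hab, if_pos rfl, if_neg hab, if_pos rfl]
          rw [← hA]
          ring
        · by_cases hc' : c = b
          · subst hc'
            rw [if_pos rfl, if_neg hc, if_pos rfl, if_neg hc, ← hB]
            ring
          · rw [if_neg hc, if_neg hc', if_neg hc, if_neg hc']
            ring
      simp only [e, Finset.sum_add_distrib]
      rw [Finset.sum_ite_eq' Finset.univ b (fun _ => (2 * B * ε + ε ^ 2) / w b),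
        Finset.sum_ite_eq' Finset.univ a (fun _ => (-(2 * A * ε) + ε ^ 2) / w a),
        if_pos (Finset.mem_univ b), if_pos (Finset.mem_univ a)]
    rw [h6, h7] at h5
    have h8 : (2 * B * ε + ε ^ 2) / w b + (-(2 * A * ε) + ε ^ 2) / w a =
        ε * (ε * (1 / w a + 1 / w b) - 2 * (A / w a - B / w b)) := by ring
    rw [h8] at h5
    have h9 : ε * (ε * (1 / w a + 1 / w b) - 2 * (A / w a - B / w b)) < 0 :=
      mul_neg_of_pos_of_neg hε0 (by linarith)
    linarith
  refine ⟨S, h1, h2', h3, h4, ?_⟩
  intro a0 ha0
  set σ : V → ℝ := fun a => (∑ d, S a d) / w a with hσ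
  obtain ⟨a1, ha1, hm⟩ := Finset.exists_min_image (Finset.univ.filter fun a => G a) σ
    ⟨a0, by simp [ha0]⟩
  have ha1' : G a1 := (Finset.mem_filter.1 ha1).2
  have hm' : ∀ b, G b → σ a1 ≤ σ b := fun b hb => hm b (by simp [hb])
  refine le_trans ?_ (hm' a0 ha0)
  set L : Finset V := Finset.univ.filter fun a => G a ∧ σ a ≤ σ a1 with hL
  set T : Finset V := Finset.univ.filter fun a' => K a' ∧ ∃ a ∈ L, R a a' with hT
  have hall' := hall L (fun a ha => (Finset.mem_filter.1 ha).2.1) T (fun a' => by simp [hT])
  have ha1L : a1 ∈ L := by simp [hL, ha1']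
  have hLpos : 0 < ∑ a ∈ L, w a := Finset.sum_pos (fun a _ => hw a) ⟨a1, ha1L⟩
  have k1 : ∑ a' ∈ T, w a' ≤ ∑ a ∈ L, ∑ d, S a d := by
    rw [Finset.sum_comm]
    calc ∑ a' ∈ T, w a' = ∑ a' ∈ T, ∑ a ∈ L, S a a' := by
          refine Finset.sum_congr rfl fun a' ha' => ?_
          obtain ⟨hk, b, hbL, hba⟩ := (Finset.mem_filter.1 ha').2
          rw [← h3 a' hk]
          symm
          apply Finset.sum_subset (Finset.subset_univ L)
          intro c _ hc
          by_contra hne0
          apply hc
          have h5 := h4 c a' hne0 b (Finset.mem_filter.1 hbL).2.1 hba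
          exact Finset.mem_filter.2 ⟨Finset.mem_univ c, (h2' c a' hne0).1,
            h5.trans (Finset.mem_filter.1 hbL).2.2⟩
      _ ≤ ∑ a', ∑ a ∈ L, S a a' :=
          Finset.sum_le_sum_of_subset_of_nonneg (Finset.subset_univ T)
            fun a' _ _ => Finset.sum_nonneg fun a _ => h1 a a'
  have k2 : ∑ a ∈ L, ∑ d, S a d ≤ σ a1 * ∑ a ∈ L, w a := by
    rw [Finset.mul_sum]
    refine Finset.sum_le_sum fun a ha => ?_
    have h5 := (Finset.mem_filter.1 ha).2.2
    have h6 : σ a * w a = ∑ d, S a d := by
      simp only [hσ]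
      exact div_mul_cancel₀ _ (hw a).ne'
    rw [← h6]
    exact mul_le_mul_of_nonneg_right h5 (hw a).le
  have k3 : 1 * ∑ a ∈ L, w a ≤ σ a1 * ∑ a ∈ L, w a := by
    rw [one_mul]
    exact hall'.trans (k1.trans k2)
  exact le_of_mul_le_mul_right k3 hLpos

/-- **The two dimensional Hall inequality.** -/
theorem core (w : V → ℝ) (hw : ∀ v, 0 < w v) (G H K Q R : V → V → Prop)
    [∀ a y, Decidable (G a y)] [∀ a z, Decidable (H a z)] [∀ a y, Decidable (K a y)]
    [∀ a z, Decidable (Q a z)]
    (hH : ∀ a z, H a z → ∃ y, G a y ∧ R y z)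
    (hK : ∀ a' y, K a' y → ∃ a, G a y ∧ R a a')
    (rowHall : ∀ a, ∀ S : Finset V, (∀ y ∈ S, G a y) → ∀ T : Finset V,
      (∀ z, z ∈ T ↔ (H a z ∧ ∃ y ∈ S, R y z)) → ∑ y ∈ S, w y ≤ ∑ z ∈ T, w z)
    (colHall : ∀ y, ∀ S : Finset V, (∀ a ∈ S, G a y) → ∀ T : Finset V,
      (∀ a', a' ∈ T ↔ (K a' y ∧ ∃ a ∈ S, R a a')) → ∑ a ∈ S, w a ≤ ∑ a' ∈ T, w a')
    (rect : ∀ a a' y z, H a z → R a a' → K a' y → R y z → G a y)
    (hQ : ∀ a a' y z, H a z → R a a' → K a' y → R y z → Q a' z) :
    ∑ a, ∑ z, (if H a z then w a * w z else 0) + ∑ a, ∑ y, (if K a y then w a * w y else 0) ≤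
      ∑ a, ∑ y, (if G a y then w a * w y else 0) + ∑ a, ∑ z, (if Q a z then w a * w z else 0) := by
  classical
  -- columns: water filling
  have hfill := fun y => fill w hw (fun a => G a y) (fun a' => K a' y) R (fun a' h => hK a' y h)
    (colHall y)
  choose S hS0 hS1 hS2 hS3 hS4 using hfill
  -- `Sh a y` the amount received by `a` in column `y`
  set Sh : V → V → ℝ := fun a y => ∑ d, S y a d with hSh
  have hShG : ∀ a y, ¬ G a y → Sh a y = 0 := by
    intro a y h
    refine Finset.sum_eq_zero fun d _ => ?_
    by_contra hne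
    exact h (hS1 y a d hne).1
  -- rows: greedy
  obtain ⟨e⟩ : Nonempty (V ≃ Fin (Fintype.card V)) := ⟨Fintype.equivFin V⟩
  have hex : ∀ a z, H a z → ∃ y, G a y ∧ R y z ∧ ∀ y', G a y' → R y' z →
      Sh a y' / w a < Sh a y / w a ∨ (Sh a y' / w a = Sh a y / w a ∧ e y ≤ e y') := by
    intro a z h
    obtain ⟨y0, hy0⟩ := hH a z h
    obtain ⟨y1, hy1, hmax⟩ := Finset.exists_max_image
      (Finset.univ.filter fun y => G a y ∧ R y z) (fun y => Sh a y / w a) ⟨y0, by simp [hy0]⟩
    obtain ⟨y2, hy2, hmin⟩ := Finset.exists_min_image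
      (Finset.univ.filter fun y => (G a y ∧ R y z) ∧ Sh a y / w a = Sh a y1 / w a) e
      ⟨y1, by simpa using (Finset.mem_filter.1 hy1).2⟩
    obtain ⟨⟨h2, h3⟩, h4⟩ := (Finset.mem_filter.1 hy2).2
    refine ⟨y2, h2, h3, fun y' h5 h6 => ?_⟩
    have h7 := hmax y' (by simp [h5, h6])
    rw [h4]
    rcases lt_or_eq_of_le h7 with h8 | h8
    · exact Or.inl h8
    · exact Or.inr ⟨h8, hmin y' (Finset.mem_filter.2 ⟨Finset.mem_univ _, ⟨h5, h6⟩, h8⟩)⟩
  choose! f hf1 hf2 hf3 using hex
  set T : V → V → ℝ := fun a y => ∑ z, (if H a z ∧ f a z = y then w z else 0) with hT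
  -- the two marginals
  have m1 : ∑ a, ∑ y, w a * T a y = ∑ a, ∑ z, (if H a z then w a * w z else 0) := by
    refine Finset.sum_congr rfl fun a _ => ?_
    rw [← Finset.mul_sum]
    simp only [hT]
    rw [Finset.sum_comm, Finset.mul_sum]
    refine Finset.sum_congr rfl fun z _ => ?_
    by_cases h : H a z
    · simp only [h, true_and, if_true]
      rw [Finset.sum_ite_eq Finset.univ (f a z) (fun _ => w z), if_pos (Finset.mem_univ _)]
    · simp only [h, false_and, if_false, Finset.sum_const_zero, mul_zero]
  have m2 : ∑ a, ∑ y, Sh a y * w y = ∑ a, ∑ y, (if K a y then w a * w y else 0) := by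
    rw [Finset.sum_comm]
    conv_rhs => rw [Finset.sum_comm]
    refine Finset.sum_congr rfl fun y _ => ?_
    rw [← Finset.sum_mul]
    simp only [hSh]
    rw [Finset.sum_comm, Finset.sum_mul]
    refine Finset.sum_congr rfl fun a' _ => ?_
    by_cases h : K a' y
    · rw [if_pos h, hS2 y a' h]
    · rw [if_neg h]
      have : ∑ x, S y x a' = 0 := Finset.sum_eq_zero fun x _ => by
        by_contra hne
        exact h (hS1 y x a' hne).2.1
      rw [this, zero_mul]
  -- saddle points
  have sad : ∑ a, ∑ y, Sh a y * T a y ≤ ∑ a, ∑ z, (if Q a z then w a * w z else 0) := by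
    have e1 : ∑ a, ∑ y, Sh a y * T a y =
        ∑ a', ∑ z, ∑ a, (if H a z then S (f a z) a a' else 0) * w z := by
      have e2 : ∀ a, ∑ y, Sh a y * T a y =
          ∑ z, ∑ a', (if H a z then S (f a z) a a' else 0) * w z := by
        intro a
        simp only [hT, Finset.mul_sum]
        rw [Finset.sum_comm]
        refine Finset.sum_congr rfl fun z _ => ?_
        by_cases h : H a z
        · simp only [h, true_and, if_true, mul_ite, mul_zero]
          rw [Finset.sum_ite_eq Finset.univ (f a z) (fun y => Sh a y * w z),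
            if_pos (Finset.mem_univ _), ← Finset.sum_mul]
        · simp only [h, false_and, if_false, mul_zero, Finset.sum_const_zero, zero_mul]
      simp only [e2]
      rw [Finset.sum_comm]
      conv_rhs => rw [Finset.sum_comm]
      refine Finset.sum_congr rfl fun z _ => ?_
      rw [Finset.sum_comm]
    rw [e1]
    refine Finset.sum_le_sum fun a' _ => Finset.sum_le_sum fun z _ => ?_
    rw [← Finset.sum_mul]
    by_cases hz : ∀ a, (if H a z then S (f a z) a a' else 0) = 0
    · rw [Finset.sum_eq_zero fun a _ => hz a, zero_mul]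
      split_ifs
      · exact mul_nonneg (hw _).le (hw _).le
      · exact le_rfl
    · push Not at hz
      obtain ⟨a1, ha1⟩ := hz
      have hH1 : H a1 z := by
        by_contra h
        rw [if_neg h] at ha1
        exact ha1 rfl
      rw [if_pos hH1] at ha1
      obtain ⟨hG1, hK1, hR1⟩ := hS1 _ _ _ ha1
      have hRz1 := hf2 a1 z hH1
      rw [if_pos (hQ a1 a' (f a1 z) z hH1 hR1 hK1 hRz1)]
      refine mul_le_mul_of_nonneg_right ?_ (hw z).le
      rw [← hS2 (f a1 z) a' hK1]
      refine Finset.sum_le_sum fun a2 _ => ?_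
      by_cases hH2 : H a2 z
      · rw [if_pos hH2]
        by_cases h0 : S (f a2 z) a2 a' = 0
        · rw [h0]
          exact hS0 _ _ _
        · obtain ⟨hG2, hK2, hR2⟩ := hS1 _ _ _ h0
          have hRz2 := hf2 a2 z hH2
          have g12 : G a1 (f a2 z) := rect a1 a' (f a2 z) z hH1 hR1 hK2 hRz2
          have g21 : G a2 (f a1 z) := rect a2 a' (f a1 z) z hH2 hR2 hK1 hRz1
          have i1 : Sh a1 (f a1 z) / w a1 ≤ Sh a2 (f a1 z) / w a2 :=
            hS3 (f a1 z) a1 a' ha1 a2 g21 hR2
          have i2 : Sh a2 (f a2 z) / w a2 ≤ Sh a1 (f a2 z) / w a1 :=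
            hS3 (f a2 z) a2 a' h0 a1 g12 hR1
          have i3 := hf3 a1 z hH1 (f a2 z) g12 hRz2
          have i4 := hf3 a2 z hH2 (f a1 z) g21 hRz1
          have hy : f a2 z = f a1 z := by
            rcases i3 with i3 | i3
            · rcases i4 with i4 | i4
              · exact absurd (i1.trans_lt (i4.trans_le i2)) (not_lt.2 i3.le)
              · exact absurd (i1.trans (i4.1.le.trans i2)) (not_le.2 i3)
            · rcases i4 with i4 | i4
              · exact absurd (i2.trans (i3.1.le.trans i1)) (not_le.2 i4)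
              · exact e.injective (le_antisymm i4.2 i3.2)
          rw [hy]
      · rw [if_neg hH2]
        exact hS0 _ _ _
  -- the product of the excesses
  have prod : 0 ≤ ∑ a, ∑ y, (Sh a y - (if G a y then w a else 0)) *
      (T a y - (if G a y then w y else 0)) := by
    refine Finset.sum_nonneg fun a _ => ?_
    set κ : V → ℝ := fun y => Sh a y - (if G a y then w a else 0) with hκ
    have hκG : ∀ y, G a y → κ y = w a * (Sh a y / w a - 1) := by
      intro y h
      simp only [hκ]
      rw [if_pos h, mul_sub, mul_div_cancel₀ _ (hw a).ne', mul_one]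
    have hκn : ∀ y, ¬ G a y → κ y = 0 := by
      intro y h
      simp only [hκ]
      rw [if_neg h, hShG a y h, sub_zero]
    have hκ0 : ∀ y, 0 ≤ κ y := by
      intro y
      by_cases h : G a y
      · rw [hκG y h]
        refine mul_nonneg (hw a).le (sub_nonneg.2 ?_)
        exact hS4 y a h
      · rw [hκn y h]
    have hl := layer w (fun y => G a y) (fun z => H a z) R (rowHall a)
      (Finset.univ.filter fun y => κ y ≠ 0).card κ (fun z => κ (f a z)) le_rfl hκ0
      (fun y hy => by
        by_contra h
        exact hy (hκn y h))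
      (fun z _ => hκ0 _) (fun z _ => (hw z).le)
      (fun y z hyz hz => by
        by_cases h : G a y
        · rw [hκG y h, hκG _ (hf1 a z hz)]
          refine mul_le_mul_of_nonneg_left ?_ (hw a).le
          have h5 : Sh a y / w a ≤ Sh a (f a z) / w a := by
            rcases hf3 a z hz y h hyz with h6 | h6
            · exact h6.le
            · exact h6.1.le
          linarith
        · rw [hκn y h]
          exact hκ0 _)
    have s1 : ∑ y, κ y * T a y = ∑ z ∈ Finset.univ.filter (fun z => H a z), w z * κ (f a z) := by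
      simp only [hT, Finset.mul_sum]
      rw [Finset.sum_comm, Finset.sum_filter]
      refine Finset.sum_congr rfl fun z _ => ?_
      by_cases h : H a z
      · simp only [h, true_and, if_true, mul_ite, mul_zero]
        rw [Finset.sum_ite_eq Finset.univ (f a z) (fun y => κ y * w z),
          if_pos (Finset.mem_univ _), mul_comm]
      · simp only [h, false_and, if_false, mul_zero, Finset.sum_const_zero]
    have s2 : ∑ y, κ y * (if G a y then w y else 0) = ∑ y, w y * κ y := by
      refine Finset.sum_congr rfl fun y _ => ?_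
      by_cases h : G a y
      · rw [if_pos h, mul_comm]
      · rw [hκn y h, zero_mul, mul_zero]
    have s3 : ∑ y, κ y * (T a y - (if G a y then w y else 0)) =
        ∑ y, κ y * T a y - ∑ y, κ y * (if G a y then w y else 0) := by
      rw [← Finset.sum_sub_distrib]
      exact Finset.sum_congr rfl fun y _ => mul_sub _ _ _
    rw [s3, s1, s2]
    linarith
  have ident : ∑ a, ∑ y, (Sh a y - (if G a y then w a else 0)) *
      (T a y - (if G a y then w y else 0)) =
      ∑ a, ∑ y, Sh a y * T a y - ∑ a, ∑ y, w a * T a y - ∑ a, ∑ y, Sh a y * w y +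
      ∑ a, ∑ y, (if G a y then w a * w y else 0) := by
    rw [← Finset.sum_sub_distrib, ← Finset.sum_sub_distrib, ← Finset.sum_add_distrib]
    refine Finset.sum_congr rfl fun a _ => ?_
    rw [← Finset.sum_sub_distrib, ← Finset.sum_sub_distrib, ← Finset.sum_add_distrib]
    refine Finset.sum_congr rfl fun y _ => ?_
    by_cases h : G a y
    · rw [if_pos h, if_pos h, if_pos h]
      ring
    · rw [if_neg h, if_neg h, if_neg h]
      have t1 : T a y = 0 := by
        simp only [hT]
        refine Finset.sum_eq_zero fun z _ => ?_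
        rw [if_neg]
        rintro ⟨h1, h2⟩
        exact h (h2 ▸ hf1 a z h1)
      rw [t1, hShG a y h]
      ring
  rw [ident, m1, m2] at prod
  linarith

end Vale.Agent.P038.H631
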