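import Vale.Agent.P038.H631.Core
import Vale.Agent.P038.H38.Strong

/-!
# P038 (H631): (OPT) holds for every oriented graph and every positive weight
-/

namespace Vale.Agent.P038.H631

open Finset Vale.Agent.P038.H139 Vale.Agent.P038.H38

variable {V : Type*} [Fintype V] [DecidableEq V] {D : OGraph V} {w : V → ℝ}

/-- closed adjacency -/
def Adj (D : OGraph V) (a b : V) : Prop := a = b ∨ D.arc a b

omit [Fintype V] [DecidableEq V] in
theorem Adj.rfl' (a : V) : Adj D a a := Or.inl rfl

theorem mem_cl' {S : Finset V} {z : V} : z ∈ cl D S ↔ ∃ y ∈ S, Adj D y z := by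
  rw [mem_cl]
  constructor
  · rintro (h | ⟨y, hy, h⟩)
    · exact ⟨z, h, Or.inl rfl⟩
    · exact ⟨y, hy, Or.inr h⟩
  · rintro ⟨y, hy, rfl | h⟩
    · exact Or.inl hy
    · exact Or.inr ⟨y, hy, h⟩

/-- outer pairs -/
structure Out (D : OGraph V) (B C : V → Finset V) : Prop where
  left : ∀ a z, Adj D a z → z ∈ B a
  right : ∀ a z, Adj D a z → z ∈ C a
  orth : ∀ a x, x ∈ B a → a ∈ C x → a = x

omit [Fintype V] [DecidableEq V] in
theorem Out.symm {B C : V → Finset V} (h : Out D B C) : Out D C B :=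
  ⟨h.right, h.left, fun a x h1 h2 => (h.orth x a h2 h1).symm⟩

theorem W_L1 (S : Finset V) : W w (L1 D S) = W w (cl D S) - W w S := by
  have e : L1 D S = cl D S \ S := by
    ext z
    rw [mem_L1', Finset.mem_sdiff]
  rw [e]
  unfold W
  rw [eq_sub_iff_add_eq, Finset.sum_sdiff (subset_cl D S)]

theorem W_L2 (S : Finset V) : L2 D S = L1 D (cl D S) := by
  ext z
  rw [mem_L2, mem_L1']

/-- column interior -/
noncomputable def col (D : OGraph V) (B : V → Finset V) (a : V) : Finset V := by
  classical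
  exact Finset.univ.filter fun z => ∀ r, Adj D r a → z ∈ B r

theorem mem_col {B : V → Finset V} {a z : V} : z ∈ col D B a ↔ ∀ r, Adj D r a → z ∈ B r := by
  classical
  simp [col]

/-- the four intersections are the diagonal -/
theorem both2 {B C : V → Finset V} (h : Out D B C) (a z : V) :
    (z ∈ cl D (B a) ∧ a ∈ col D C z) ↔ a = z := by
  constructor
  · rintro ⟨h1, h2⟩
    obtain ⟨y, hy, hyz⟩ := mem_cl'.1 h1
    rw [mem_col] at h2
    have h3 := h.orth a y hy (h2 y hyz)
    subst h3
    exact h.orth a z (h.left a z hyz) (h2 z (Adj.rfl' z))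
  · rintro rfl
    exact ⟨mem_cl'.2 ⟨a, h.left a a (Adj.rfl' a), Adj.rfl' a⟩,
      mem_col.2 fun r hr => h.right r a hr⟩

theorem both4 {B C : V → Finset V} (h : Out D B C) (a z : V) :
    (z ∈ cl D (col D B a) ∧ a ∈ cl D (col D C z)) ↔ a = z := by
  constructor
  · rintro ⟨h1, h2⟩
    obtain ⟨y, hy, hyz⟩ := mem_cl'.1 h1
    obtain ⟨b, hb, hba⟩ := mem_cl'.1 h2
    rw [mem_col] at hy hb
    have h3 := h.orth b y (hy b hba) (hb y hyz)
    subst h3
    have h4 := h.orth a b (hy a (Adj.rfl' a)) (h.right b a hba)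
    have h5 := h.orth b z (h.left b z hyz) (hb z (Adj.rfl' z))
    rw [h4, h5]
  · rintro rfl
    exact ⟨mem_cl'.2 ⟨a, mem_col.2 fun r hr => h.left r a hr, Adj.rfl' a⟩,
      mem_cl'.2 ⟨a, mem_col.2 fun r hr => h.right r a hr, Adj.rfl' a⟩⟩

/-- optimality of a row: Hall's condition -/
theorem hall {B C : V → Finset V} (hw : ∀ v, 0 < w v) (h : Out D B C)
    (hmin : ∀ B' C' : V → Finset V, Out D B' C' → En D w B + En D w C ≤ En D w B' + En D w C')
    (a : V) (S : Finset V) (hS : ∀ y ∈ S, y ∉ B a ∧ a ∉ C y) :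
    W w S ≤ W w (cl D S \ cl D (B a)) := by
  classical
  set B' : V → Finset V := Function.update B a (B a ∪ S) with hB'
  have hout : Out D B' C := by
    refine ⟨?_, h.right, ?_⟩
    · intro b z hbz
      by_cases hb : b = a
      · subst hb
        rw [hB', Function.update_self]
        exact Finset.mem_union_left _ (h.left b z hbz)
      · rw [hB', Function.update_of_ne hb]
        exact h.left b z hbz
    · intro b x hx hb'
      by_cases hb : b = a
      · subst hb
        rw [hB', Function.update_self, Finset.mem_union] at hx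
        rcases hx with hx | hx
        · exact h.orth b x hx hb'
        · exact absurd hb' (hS x hx).2
      · rw [hB', Function.update_of_ne hb] at hx
        exact h.orth b x hx hb'
  have h1 := hmin B' C hout
  have h2 : En D w B' - En D w B = w a * (W w (L1 D (B a ∪ S)) - W w (L1 D (B a))) := by
    unfold En
    rw [← Finset.sum_sub_distrib, Finset.sum_eq_single a]
    · rw [hB', Function.update_self]
      ring
    · intro b _ hb
      rw [hB', Function.update_of_ne hb, sub_self]
    · intro hn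
      exact absurd (Finset.mem_univ a) hn
  have h3 : 0 ≤ W w (L1 D (B a ∪ S)) - W w (L1 D (B a)) := by
    by_contra hn
    push Not at hn
    have := mul_neg_of_pos_of_neg (hw a) hn
    linarith
  rw [W_L1, W_L1] at h3
  have h4 : W w (B a ∪ S) = W w (B a) + W w S := by
    unfold W
    rw [Finset.sum_union]
    rw [Finset.disjoint_left]
    intro y hy hyS
    exact (hS y hyS).1 hy
  have h5 : W w (cl D (B a ∪ S)) = W w (cl D (B a)) + W w (cl D S \ cl D (B a)) := by
    have e : cl D (B a ∪ S) = cl D (B a) ∪ (cl D S \ cl D (B a)) := by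
      rw [Finset.union_sdiff_self_eq_union]
      ext z
      rw [Finset.mem_union, mem_cl', mem_cl', mem_cl']
      constructor
      · rintro ⟨y, hy, hyz⟩
        rcases Finset.mem_union.1 hy with hy | hy
        · exact Or.inl ⟨y, hy, hyz⟩
        · exact Or.inr ⟨y, hy, hyz⟩
      · rintro (⟨y, hy, hyz⟩ | ⟨y, hy, hyz⟩)
        · exact ⟨y, Finset.mem_union_left _ hy, hyz⟩
        · exact ⟨y, Finset.mem_union_right _ hy, hyz⟩
    rw [e]
    unfold W
    rw [Finset.sum_union Finset.disjoint_sdiff]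
  rw [h4, h5] at h3
  linarith

theorem En_eq (B : V → Finset V) : En D w B =
    ∑ a, ∑ z, ((if z ∈ cl D (B a) then w a * w z else 0) - (if z ∈ B a then w a * w z else 0)) := by
  unfold En
  refine Finset.sum_congr rfl fun a _ => ?_
  rw [W_L1, Finset.sum_sub_distrib, Finset.sum_ite_mem, Finset.sum_ite_mem, Finset.univ_inter,
    Finset.univ_inter, ← Finset.mul_sum, ← Finset.mul_sum, mul_sub]
  rfl

theorem En_eq' (B : V → Finset V) : En D w B =
    ∑ a, ∑ z, ((if a ∈ cl D (B z) then w a * w z else 0) - (if a ∈ B z then w a * w z else 0)) := by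
  rw [En_eq, Finset.sum_comm]
  refine Finset.sum_congr rfl fun a _ => Finset.sum_congr rfl fun z _ => ?_
  rw [mul_comm (w z) (w a)]

/-- **The inner energy of the column interior of an outer minimum is at most the outer minimum.** -/
theorem inner_le {B C : V → Finset V} (hw : ∀ v, 0 < w v) (h : Out D B C)
    (hmin : ∀ B' C' : V → Finset V, Out D B' C' → En D w B + En D w C ≤ En D w B' + En D w C') :
    En D w (col D B) + En D w (col D C) ≤ En D w B + En D w C := by
  classical
  have hmin' : ∀ B' C' : V → Finset V, Out D B' C' →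
      En D w C + En D w B ≤ En D w B' + En D w C' := by
    intro B' C' h'
    have := hmin C' B' h'.symm
    linarith
  have key := core w hw (fun a y => y ∉ B a ∧ a ∉ C y)
    (fun a z => z ∉ cl D (B a) ∧ a ∉ col D C z)
    (fun a y => a ∉ cl D (C y) ∧ y ∉ col D B a)
    (fun a z => z ∉ cl D (col D B a) ∧ a ∉ cl D (col D C z)) (Adj D)
    (by
      rintro a z ⟨h1, h2⟩
      rw [mem_col] at h2
      push Not at h2
      obtain ⟨r, hr, har⟩ := h2
      exact ⟨r, ⟨fun hb => h1 (mem_cl'.2 ⟨r, hb, hr⟩), har⟩, hr⟩)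
    (by
      rintro a' y ⟨h1, h2⟩
      rw [mem_col] at h2
      push Not at h2
      obtain ⟨r, hr, har⟩ := h2
      exact ⟨r, ⟨har, fun hb => h1 (mem_cl'.2 ⟨r, hb, hr⟩)⟩, hr⟩)
    (by
      intro a S hS T hT
      have h1 := hall hw h hmin a S hS
      unfold W at h1
      refine h1.trans (Finset.sum_le_sum_of_subset_of_nonneg ?_ fun v _ _ => (hw v).le)
      intro z hz
      obtain ⟨hz1, hz2⟩ := Finset.mem_sdiff.1 hz
      obtain ⟨y, hy, hyz⟩ := mem_cl'.1 hz1
      rw [hT]
      refine ⟨⟨hz2, fun hc => ?_⟩, y, hy, hyz⟩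
      exact (hS y hy).2 (mem_col.1 hc y hyz))
    (by
      intro y S hS T hT
      have h1 := hall hw h.symm hmin' y S (fun a ha => ⟨(hS a ha).2, (hS a ha).1⟩)
      unfold W at h1
      refine h1.trans (Finset.sum_le_sum_of_subset_of_nonneg ?_ fun v _ _ => (hw v).le)
      intro z hz
      obtain ⟨hz1, hz2⟩ := Finset.mem_sdiff.1 hz
      obtain ⟨a, ha, haz⟩ := mem_cl'.1 hz1
      rw [hT]
      refine ⟨⟨hz2, fun hc => ?_⟩, a, ha, haz⟩
      exact (hS a ha).1 (mem_col.1 hc a haz))
    (by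
      rintro a a' y z ⟨h1, -⟩ haa ⟨h2, -⟩ hyz
      exact ⟨fun hb => h1 (mem_cl'.2 ⟨y, hb, hyz⟩), fun hc => h2 (mem_cl'.2 ⟨a, hc, haa⟩)⟩)
    (by
      rintro a a' y z ⟨h1, -⟩ haa ⟨h2, -⟩ hyz
      refine ⟨fun hb => ?_, fun hc => ?_⟩
      · obtain ⟨y', hy', hyz'⟩ := mem_cl'.1 hb
        exact h1 (mem_cl'.2 ⟨y', mem_col.1 hy' a haa, hyz'⟩)
      · obtain ⟨r, hr, hra⟩ := mem_cl'.1 hc
        exact h2 (mem_cl'.2 ⟨r, mem_col.1 hr y hyz, hra⟩))
  have ident : En D w B + En D w C - En D w (col D B) - En D w (col D C) =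
      ∑ a, ∑ y, (if y ∉ B a ∧ a ∉ C y then w a * w y else 0) +
      ∑ a, ∑ z, (if z ∉ cl D (col D B a) ∧ a ∉ cl D (col D C z) then w a * w z else 0) -
      ∑ a, ∑ z, (if z ∉ cl D (B a) ∧ a ∉ col D C z then w a * w z else 0) -
      ∑ a, ∑ y, (if a ∉ cl D (C y) ∧ y ∉ col D B a then w a * w y else 0) := by
    rw [En_eq B, En_eq (col D B), En_eq' C, En_eq' (col D C)]
    simp only [← Finset.sum_add_distrib, ← Finset.sum_sub_distrib]
    refine Finset.sum_congr rfl fun a _ => Finset.sum_congr rfl fun z _ => ?_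
    have b1 : (z ∈ B a ∧ a ∈ C z) ↔ a = z := by
      constructor
      · rintro ⟨h1, h2⟩
        exact h.orth a z h1 h2
      · rintro rfl
        exact ⟨h.left a a (Adj.rfl' a), h.right a a (Adj.rfl' a)⟩
    have b2 := both2 h a z
    have b3 : (a ∈ cl D (C z) ∧ z ∈ col D B a) ↔ a = z := by
      rw [both2 h.symm z a]
      exact eq_comm
    have b4 := both4 h a z
    have gen : ∀ (P Q : Prop) [Decidable P] [Decidable Q] (x : ℝ), ((P ∧ Q) ↔ a = z) →
        (if ¬ P ∧ ¬ Q then x else 0) =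
          x - (if P then x else 0) - (if Q then x else 0) + (if a = z then x else 0) := by
      intro P Q _ _ x hPQ
      by_cases hP : P <;> by_cases hQ : Q <;> simp [hP, hQ, ← hPQ]
    rw [gen _ _ _ b1, gen _ _ _ b4, gen _ _ _ b2, gen _ _ _ b3]
    ring
  linarith

/-- **(OPT)**, 366's inequality, for all `D` and all positive `w`. -/
theorem opt_all (D : OGraph V) (w : V → ℝ) (hw : ∀ v, 0 < w v) : OPT D w := by
  classical
  intro Y Z hYZ hmin
  have hcl : Out D (fun a => cl D (Y a)) (fun a => cl D (Z a)) := by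
    refine ⟨fun a z h => mem_cl'.2 ⟨a, hYZ.left a, h⟩, fun a z h => mem_cl'.2 ⟨a, hYZ.right a, h⟩,
      fun a x h1 h2 => ?_⟩
    by_contra hne
    exact hYZ.orth a x hne h1 h2
  obtain ⟨⟨B, C⟩, hBC, hmin2⟩ := Set.exists_min_image
    {p : (V → Finset V) × (V → Finset V) | Out D p.1 p.2} (fun p => En D w p.1 + En D w p.2)
    (Set.toFinite _) ⟨(fun a => cl D (Y a), fun a => cl D (Z a)), hcl⟩
  have hBC' : Out D B C := hBC
  have h1 := inner_le hw hBC' fun B' C' h' => hmin2 (B', C') h'
  have h2 : Orth D (col D B) (col D C) := by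
    refine ⟨fun a => ?_, fun a => ?_, fun a x hne h3 h4 => ?_⟩
    · exact mem_col.2 fun r hr => hBC'.left r a hr
    · exact mem_col.2 fun r hr => hBC'.right r a hr
    · exact hne ((both4 hBC' a x).1 ⟨h3, h4⟩)
  have h3 := hmin _ _ h2
  have h4 := hmin2 (fun a => cl D (Y a), fun a => cl D (Z a)) hcl
  have h5 : ∀ Y : V → Finset V, En D w (fun a => cl D (Y a)) = ∑ a, w a * W w (L2 D (Y a)) := by
    intro Y
    unfold En
    exact Finset.sum_congr rfl fun a _ => by rw [W_L2]
  simp only at h4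
  rw [h5, h5] at h4
  change En D w Y + En D w Z ≤ _
  linarith

end Vale.Agent.P038.H631
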